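import Vale.Agent.P235.H141.CX.Defs
import Vale.Agent.P235.K5.SX.H332.NLow

set_option linter.all false

/-!
# P235, line CX (helper141), rows [CX1] and [CX2]: Theorem N with one renewed slot (helper332)
-/

namespace Vale.Agent.P235.H332.CX

open Finset Vale.Agent.P235 Vale.Agent.P235.H926 Vale.Agent.P235.K5 Vale.Agent.P235.K5.H439
  Vale.Agent.P235.K5.H332 Vale.Agent.P235.K5.H838 Vale.Agent.P235.K5.SX.H332
  Vale.Agent.P235.H141.CX

section

variable {n T k : ℕ} {Z : Tor n T k} {d : Fin n → Fin n → ℝ}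

/-- nothing is contracted on an adhesion with at most one new vertex -/
theorem rho_ge (h : Z.Sep d) {r0 : Fin n} (hr0 : (Z.tor r0).val = 0) (hO : One Z) :
    ∀ (N : ℕ) (t : Fin T), t.val ≤ N →
    ∀ p ∈ Z.S t, ∀ q ∈ Z.S t, d p q ≤ (tree838 h hr0).rho t p q := by
  intro N
  induction N with
  | zero =>
    intro t ht p hp
    exfalso
    have h1 := nonroot_of_mem hp
    have h2 := slo_up_lt h1
    rw [Fin.lt_def] at h2
    omega
  | succ N ih =>
    intro t ht p hp q hq
    have hd := pm_of h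
    have hnr := nonroot_of_mem hp
    have hpar : (tree838 h hr0).par t = some (Z.up t) := if_neg hnr
    rw [(tree838 h hr0).rho_eq_E hpar]
    have hE : ∀ x y, 0 ≤ (tree838 h hr0).E (Z.up t) x y := ((tree838 h hr0).E_pm _).nonneg
    have hlt := slo_up_lt hnr
    rw [Fin.lt_def] at hlt
    have IH := ih (Z.up t) (by omega)
    have key : ∀ x y, y ∈ Z.S (Z.up t) → d x y ≤ (tree838 h hr0).E (Z.up t) x y := by
      intro x y hy
      have hS : (tree838 h hr0).S (Z.up t) = Z.S (Z.up t) := SS_of_ne (nonroot_of_mem hy)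
      have hSu : y ∈ (tree838 h hr0).S (Z.up t) := by
        rw [hS]
        exact hy
      rw [← (tree838 h hr0).X_eq_E hd hSu x]
      obtain ⟨a, ha, h3⟩ := exists_XX (d := d) (ρ := (tree838 h hr0).rho (Z.up t)) ⟨y, hSu⟩ y x
      have h4 : (tree838 h hr0).X (Z.up t) y x = d x a + (tree838 h hr0).rho (Z.up t) a y := h3
      rw [h4]
      rw [hS] at ha
      have h5 := IH a ha y hy
      have h6 := h.tri x a y
      linarith
    rcases mem_H_up hq with hq' | hq'
    · exact key p q hq'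
    · rcases mem_H_up hp with hp' | hp'
      · rw [((tree838 h hr0).E_pm _).symm, h.symm]
        exact key q p hp'
      · have hpq := hO t hnr p hp q hq hp' hq'
        subst hpq
        rw [h.self]
        exact hE _ _

theorem X_ge (h : Z.Sep d) {r0 : Fin n} (hr0 : (Z.tor r0).val = 0) (hO : One Z) {t : Fin T}
    {a : Fin n} (ha : a ∈ Z.S t) (z : Fin n) : d z a ≤ (tree838 h hr0).X t a z := by
  have hS : (tree838 h hr0).S t = Z.S t := SS_of_ne (nonroot_of_mem ha)
  have hSu : a ∈ (tree838 h hr0).S t := by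
    rw [hS]
    exact ha
  obtain ⟨b, hb, h3⟩ := exists_XX (d := d) (ρ := (tree838 h hr0).rho t) ⟨a, hSu⟩ a z
  have h4 : (tree838 h hr0).X t a z = d z b + (tree838 h hr0).rho t b a := h3
  rw [h4]
  rw [hS] at hb
  have h5 := rho_ge h hr0 hO t.val t le_rfl b hb a ha
  have h6 := h.tri z b a
  linarith

/-- the hat at `x` -/
noncomputable def hat (d : Fin n → Fin n → ℝ) (f : ℝ) (x v : Fin n) : ℝ :=
  cl (max (|f| - d x v) 0) f

theorem hat_self (h : Z.Sep d) (f : ℝ) (x : Fin n) : hat d f x x = f := by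
  unfold hat
  rw [h.self, sub_zero]
  exact cl_of_le (le_max_left _ _)

theorem hat_far {f : ℝ} {x v : Fin n} (hf : |f| ≤ d x v) : hat d f x v = 0 := by
  unfold hat
  rw [max_eq_right (by linarith)]
  exact cl_zero _

theorem hat_lip (h : Z.Sep d) (f : ℝ) (x p q : Fin n) : |hat d f x p - hat d f x q| ≤ d p q := by
  unfold hat
  have hd := pm_of h
  refine cl_lip ?_ (by rw [sub_self, abs_zero]; exact hd.nonneg p q)
  have h1 := h.tri x p q
  have h2 := h.tri x q p
  rw [h.symm q p] at h2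
  rw [abs_le]
  have h3 := hd.nonneg p q
  constructor
  · rcases le_total (|f| - d x q) 0 with h4 | h4
    · rw [max_eq_right h4]
      have := le_max_right (|f| - d x p) 0
      linarith
    · rw [max_eq_left h4]
      have := le_max_left (|f| - d x p) 0
      linarith
  · rcases le_total (|f| - d x p) 0 with h4 | h4
    · rw [max_eq_right h4]
      have := le_max_right (|f| - d x q) 0
      linarith
    · rw [max_eq_left h4]
      have := le_max_left (|f| - d x q) 0
      linarith

/-- the child of `t` above a given torso is unique -/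
theorem child_unique {u u' t w : Fin T} (hu : Z.up u = t) (hu' : Z.up u' = t) (hne : u ≠ t)
    (hne' : u' ≠ t) (h : Z.tree.Desc u w) (h' : Z.tree.Desc u' w) : u = u' := by
  have key : ∀ (u u' : Fin T) (j j' : ℕ), Z.up u = t → Z.up u' = t → u' ≠ t →
      Z.tree.par^[j] w = u → Z.tree.par^[j'] w = u' → j < j' → False := by
    intro u u' j j' hu hu' hne' hj hj' hlt
    obtain ⟨i, rfl⟩ := Nat.exists_eq_add_of_lt hlt
    have e1 : j + i + 1 = i + (1 + j) := by omega
    rw [e1, Function.iterate_add_apply, Function.iterate_add_apply, hj] at hj'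
    have h2 : Z.tree.par^[1] u = t := hu
    rw [h2] at hj'
    have h3 : Z.tree.Desc u' t := ⟨i, hj'⟩
    have h4 : u' ≤ t := H684.Elim.Desc.le h3
    have h5 : Z.up u' < u' := slo_up_lt (by rw [hu']; exact fun h => hne' h.symm)
    rw [hu'] at h5
    exact absurd h5 (not_lt.2 h4)
  obtain ⟨j, hj⟩ := h
  obtain ⟨j', hj'⟩ := h'
  rcases lt_trichotomy j j' with hlt | rfl | hlt
  · exact (key u u' j j' hu hu' hne' hj hj' hlt).elim
  · rw [← hj, ← hj']
  · exact (key u' u j' j hu' hu hne hj' hj hlt).elim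

open Classical in
/-- the renewed slot, on all vertices -/
noncomputable def ph (Z : Tor n T k) (d : Fin n → Fin n → ℝ) (φ : Fin T → Fin n → ℝ)
    (t : Fin T) (v : Fin n) : ℝ :=
  if v ∈ Z.H t then φ t v else
    ∑ x ∈ univ.filter (fun x => Z.tor x = t ∧ ∃ u, Z.up u = t ∧ u ≠ t ∧ Z.Below u v ∧ x ∈ Z.S u),
      hat d (φ t x) x v

theorem ph_H {φ : Fin T → Fin n → ℝ} {t : Fin T} {v : Fin n} (hv : v ∈ Z.H t) :
    ph Z d φ t v = φ t v := by
  unfold ph
  rw [if_pos hv]

theorem mem_H_iff {t : Fin T} {v : Fin n} : v ∈ Z.H t ↔ v ∈ Z.S t ∨ Z.tor v = t := by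
  unfold Tor.H
  rw [mem_union, mem_filter]
  simp

/-- below a child the slot is the hat of its new vertex -/
theorem ph_lip (h : Z.Sep d) (hO : One Z) {φ : Fin T → Fin n → ℝ}
    (h0 : ∀ t, ∀ a ∈ Z.S t, φ t a = 0) (h1 : ∀ t, ∀ x ∈ Z.H t, ∀ a ∈ Z.S t, |φ t x| ≤ d x a)
    {u : Fin T} (hu : ¬ Z.up u = u) {p q : Fin n} (hp : p ∈ SU Z u) (hq : q ∈ SU Z u) :
    |ph Z d φ (Z.up u) p - ph Z d φ (Z.up u) q| ≤ d p q := by
  classical
  set t := Z.up u with ht
  have hut : u ≠ t := fun h' => hu h'.symm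
  have hlt : t < u := slo_up_lt hu
  set XN := (Z.S u).filter fun x => Z.tor x = t with hXN
  have key : ∀ v ∈ SU Z u, ph Z d φ t v = ∑ x ∈ XN, hat d (φ t x) x v := by
    intro v hv
    rcases hv with hv | hv
    · -- below
      have hv' : Z.Below u v := hv
      have hvH : v ∉ Z.H t := by
        rw [mem_H_iff]
        have h3 : u ≤ Z.tor v := slo_le hv'
        rintro (h4 | h4)
        · have h5 := Z.low t v h4
          exact absurd (lt_of_lt_of_le hlt h3) (not_lt.2 h5.le)
        · rw [h4] at h3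
          exact absurd hlt (not_lt.2 h3)
      unfold ph
      rw [if_neg hvH]
      refine Finset.sum_congr ?_ fun _ _ => rfl
      ext x
      rw [mem_filter, hXN, mem_filter]
      constructor
      · rintro ⟨-, hx, u', hu', hne', hb, hxS⟩
        have := child_unique hu' ht.symm hne' hut hb hv'
        subst this
        exact ⟨hxS, hx⟩
      · rintro ⟨hxS, hx⟩
        exact ⟨mem_univ _, hx, u, rfl, hut, hv', hxS⟩
    · have hv' : v ∈ Z.S u := mem_coe.1 hv
      rcases Z.sub u v hv' with h3 | h3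
      · have hvH : v ∈ Z.H t := mem_H_iff.2 (Or.inl h3)
        rw [ph_H hvH, h0 t v h3]
        symm
        refine Finset.sum_eq_zero fun x hx => ?_
        rw [hXN, mem_filter] at hx
        exact hat_far (h1 t x (mem_H_iff.2 (Or.inr hx.2)) v h3)
      · have hvH : v ∈ Z.H t := mem_H_iff.2 (Or.inr h3)
        rw [ph_H hvH]
        have hs : XN = {v} := by
          ext x
          rw [hXN, mem_filter, mem_singleton]
          constructor
          · rintro ⟨hxS, hx⟩
            exact hO u hu x hxS v hv' hx h3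
          · rintro rfl
            exact ⟨hv', h3⟩
        rw [hs, sum_singleton, hat_self h]
  rw [key p hp, key q hq]
  have hc : XN.card ≤ 1 := by
    rw [Finset.card_le_one]
    intro a ha b hb
    rw [hXN, mem_filter] at ha hb
    exact hO u hu a ha.1 b hb.1 ha.2 hb.2
  have hd := pm_of h
  rw [← Finset.sum_sub_distrib]
  refine (Finset.abs_sum_le_sum_abs _ _).trans ?_
  refine (Finset.sum_le_sum fun x _ => hat_lip h (φ t x) x p q).trans ?_
  rw [Finset.sum_const, nsmul_eq_mul]
  have h2 : ((XN.card : ℕ) : ℝ) ≤ 1 := by exact_mod_cast hc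
  have h3 := hd.nonneg p q
  nlinarith

end

/-- **[CX1 + CX2]** -/
theorem ngStmt : NGStmt := by
  classical
  intro k hk
  have hth := PathChain.thSeq_pos hk (k - 1)
  have hkR : (0 : ℝ) < (k : ℝ) := by exact_mod_cast hk
  set ε : ℝ := min (1 / 2) (PathChain.thSeq k (k - 1) / 4 / (k : ℝ)) with hεdef
  have hε0 : 0 < ε := lt_min (by norm_num) (by positivity)
  have hε1 : ε ≤ 1 / 2 := min_le_left _ _
  have hε2 : k * ε ≤ PathChain.thSeq k (k - 1) / 4 := by
    have h1 : ε ≤ PathChain.thSeq k (k - 1) / 4 / (k : ℝ) := min_le_right _ _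
    have h2 := mul_le_mul_of_nonneg_left h1 hkR.le
    refine h2.trans (le_of_eq ?_)
    field_simp
  obtain ⟨κ, hκ, HB⟩ := exists_bproc k (H360.Nodes.LL k (k * (k * k) + 1) + 1) hε0
  refine ⟨κ / 124, PathChain.C1 k (κ * (1 / 62)), by positivity, PathChain.C1_pos hk (by positivity),
    ?_⟩
  intro n T Z d h hO φ hφ0 hφ1
  have hd : PM d := pm_of h
  rcases isEmpty_or_nonempty (Fin n) with hn | ⟨⟨v0⟩⟩
  · have hT : ∀ t : Fin T, False := fun t => by
      obtain ⟨v, -⟩ := Z.surj t
      exact hn.false v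
    exact ⟨fun t => (hT t).elim, 1, one_pos, fun t => (hT t).elim, fun t => (hT t).elim,
      fun t => (hT t).elim, fun t => (hT t).elim, fun t => (hT t).elim, fun s => (hT (s 0)).elim⟩
  obtain ⟨r0, hr⟩ := Z.surj ⟨0, (Nat.zero_le _).trans_lt (Z.tor v0).isLt⟩
  have hr0 : (Z.tor r0).val = 0 := by rw [hr]
  set D := tree838 h hr0 with hD
  have hcard : ∀ t, (D.S t).card ≤ k := by
    intro t
    show (SS Z r0 t).card ≤ k
    unfold SS
    split_ifs
    · rw [card_singleton]
      exact hk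
    · exact Z.card t
  have hM : ∀ p q, d p q ≤ ∑ x : Fin n × Fin n, d x.1 x.2 := fun p q =>
    Finset.single_le_sum (f := fun x : Fin n × Fin n => d x.1 x.2)
      (fun x _ => hd.nonneg _ _) (mem_univ (p, q))
  set M0 : ℝ := ∑ x : Fin n × Fin n, d x.1 x.2 with hM0
  have hM00 : 0 ≤ M0 := Finset.sum_nonneg fun x _ => hd.nonneg _ _
  obtain ⟨η, h1, h2, h3, -, h5⟩ := D.slots hd hcard (fun t => SS_ne h t) M0 hM
  have hSt : ∀ {t : Fin T} {a : Fin n}, a ∈ Z.S t → a ∈ D.S t := by
    intro t a ha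
    show a ∈ SS Z r0 t
    rw [SS_of_ne (nonroot_of_mem ha)]
    exact ha
  have hXn : ∀ t z, ∀ a ∈ Z.S t, 0 ≤ D.X t a z := fun t z a ha =>
    ((D.E_pm t).nonneg z a).trans (D.E_le_X hd (hSt ha) z)
  have hup : ∀ {t : Fin T}, ¬ Z.up t = t → D.par t = some (Z.up t) := fun ht => if_neg ht
  -- the renewed slot and the metrics of the bags
  set g : Fin T → Fin n → ℝ := ph Z d φ with hg
  set M1 : ℝ := M0 + ∑ x : Fin T × Fin n × Fin n, |g x.1 x.2.1 - g x.1 x.2.2| with hM1
  have hgM : ∀ t p q, |g t p - g t q| ≤ M1 := by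
    intro t p q
    have h6 := Finset.single_le_sum
      (f := fun x : Fin T × Fin n × Fin n => |g x.1 x.2.1 - g x.1 x.2.2|)
      (fun x _ => abs_nonneg _) (mem_univ (t, p, q))
    have h7 : |g t p - g t q| ≤ ∑ x : Fin T × Fin n × Fin n, |g x.1 x.2.1 - g x.1 x.2.2| := h6
    linarith
  have hM01 : M0 ≤ M1 := by
    have h6 : 0 ≤ ∑ x : Fin T × Fin n × Fin n, |g x.1 x.2.1 - g x.1 x.2.2| :=
      Finset.sum_nonneg fun x _ => abs_nonneg _
    linarith
  set dt : Fin T → Fin n → Fin n → ℝ := fun t p q =>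
    if p ∈ SU Z t ∧ q ∈ SU Z t then max (d p q) |g t p - g t q| else M1 with hdt
  have dt_in : ∀ {t p q}, p ∈ SU Z t → q ∈ SU Z t → dt t p q = max (d p q) |g t p - g t q| :=
    fun hp hq => if_pos ⟨hp, hq⟩
  have dt_out : ∀ {t p q}, ¬ (p ∈ SU Z t ∧ q ∈ SU Z t) → dt t p q = M1 := fun hpq => if_neg hpq
  have dt_le : ∀ t p q, dt t p q ≤ M1 := by
    intro t p q
    by_cases hpq : p ∈ SU Z t ∧ q ∈ SU Z t
    · rw [dt_in hpq.1 hpq.2]
      exact max_le ((hM p q).trans hM01) (hgM t p q)
    · rw [dt_out hpq]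
  have hdtn : ∀ t p q, 0 ≤ dt t p q := by
    intro t p q
    by_cases hpq : p ∈ SU Z t ∧ q ∈ SU Z t
    · rw [dt_in hpq.1 hpq.2]
      exact (hd.nonneg p q).trans (le_max_left _ _)
    · rw [dt_out hpq]
      linarith
  have hdtmono : ∀ t, ¬ Z.up t = t → ∀ p q, dt (Z.up t) p q ≤ dt t p q := by
    intro t ht p q
    by_cases hpq : p ∈ SU Z t ∧ q ∈ SU Z t
    · rw [dt_in hpq.1 hpq.2, dt_in (SU_up hpq.1) (SU_up hpq.2)]
      exact max_le (le_max_left _ _)
        ((ph_lip h hO hφ0 hφ1 ht hpq.1 hpq.2).trans (le_max_left _ _))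
    · rw [dt_out hpq]
      exact dt_le _ _ _
  have hDdt : ∀ t p q, D.dt M0 t p q ≤ dt t p q := by
    intro t p q
    by_cases hpq : p ∈ SU Z t ∧ q ∈ SU Z t
    · rw [dt_in hpq.1 hpq.2]
      have h6 : D.dt M0 t p q = D.E t p q := D.dt_of_mem hpq.1 hpq.2
      rw [h6]
      exact (D.E_le hd t p q).trans (le_max_left _ _)
    · rw [dt_out hpq]
      exact (D.dt_le hd hM t p q).trans hM01
  have hHU : ∀ {t : Fin T} {v : Fin n}, v ∈ Z.H t → v ∈ SU Z t := fun hv => H_sub_SU hv
  have hSH : ∀ {t : Fin T} {a : Fin n}, a ∈ Z.S t → a ∈ Z.H t := fun ha =>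
    mem_H_iff.2 (Or.inl ha)
  set Cc : Fin T → Fin n → Fin n → ℝ := fun t z a =>
    max (if a ∈ Z.S t then D.X t a z / 62 else 0) |g t z - g t a| with hCc
  have hCc0 : ∀ t z a, 0 ≤ Cc t z a := fun t z a => (abs_nonneg _).trans (le_max_right _ _)
  have hCcX : ∀ t z a, a ∈ Z.S t → D.X t a z / 62 ≤ Cc t z a := by
    intro t z a ha
    refine le_trans (le_of_eq ?_) (le_max_left _ _)
    rw [if_pos ha]
  obtain ⟨R⟩ := HB (Fin T) (Fin n) dt Z.up (fun t => t.val) (fun t => Z.up t = t) Z.S
    (fun t j p => Fin.cases (motive := fun _ => ℝ) (g t p) (fun i => η t i p) j) Cc hdtn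
    hdtmono (fun t ht => Fin.lt_def.1 (slo_up_lt ht))
    Z.card
    (fun t j p q => by
      refine Fin.cases ?_ (fun i => ?_) j
      · show |g t p - g t q| ≤ dt t p q
        by_cases hpq : p ∈ SU Z t ∧ q ∈ SU Z t
        · rw [dt_in hpq.1 hpq.2]
          exact le_max_right _ _
        · rw [dt_out hpq]
          exact hgM t p q
      · show |η t i p - η t i q| ≤ dt t p q
        exact (h2 t i p q).trans (hDdt t p q))
    (fun t ht j => by
      refine Fin.cases ?_ (fun i => ?_) j
      · right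
        intro a ha
        show g t a = 0
        rw [hg, ph_H (hSH ha)]
        exact hφ0 t a ha
      · rcases h3 t i with ⟨s, hs, h6⟩ | h6
        · rw [hup ht] at hs
          cases hs
          exact Or.inl h6
        · exact Or.inr fun a ha => h6 a (hSt ha))
    (fun t z a hpos => by
      rcases le_total (if a ∈ Z.S t then D.X t a z / 62 else 0) |g t z - g t a| with hle | hle
      · refine ⟨0, ?_⟩
        show Cc t z a ≤ |g t z - g t a|
        exact max_le hle le_rfl
      · have h6 : Cc t z a = if a ∈ Z.S t then D.X t a z / 62 else 0 := max_eq_left hle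
        rw [h6] at hpos
        by_cases ha : a ∈ Z.S t
        · rw [if_pos ha] at hpos
          obtain ⟨j, hj⟩ := h5 t z a (hSt ha) (by linarith)
          refine ⟨j.succ, ?_⟩
          rw [h6, if_pos ha]
          exact hj
        · rw [if_neg ha] at hpos
          exact absurd hpos (lt_irrefl _))
  have hSne : ∀ t, ¬ Z.up t = t → (Z.S t).Nonempty := by
    intro t ht
    have := SS_ne h (r0 := r0) t
    rwa [SS_of_ne ht] at this
  obtain ⟨μ, Λ, hΛ, hlaw, hcons, hupp, hlow, hfar⟩ := nlocL (H := Z.H) R hκ hdtn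
    (fun t => t.val) T (fun t ht => Fin.lt_def.1 (slo_up_lt ht)) (fun t => t.isLt.le)
    (fun t => subset_union_left)
    (fun t _ => by
      intro a ha
      exact mem_H_iff.2 (Z.sub t a ha))
    hSne hk Z.card hε2 (c0 := 1 / 62) (by norm_num) (fun t z a => D.X t a z)
    (fun t z _ _ a ha => hXn t z a ha)
    (fun t z hz _ a ha => by
      have h6 : dt t z a = max (d z a) |g t z - g t a| := dt_in (hHU hz) (hHU (hSH ha))
      have h7 := X_ge h hr0 hO ha z
      have h8 := hXn t z a ha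
      have h9 : g t a = 0 := by
        rw [hg, ph_H (hSH ha)]
        exact hφ0 t a ha
      have h10 : g t z = φ t z := ph_H hz
      rw [h6, h9, h10, sub_zero]
      refine max_le ?_ ?_
      · have : d z a ≤ D.X t a z := h7
        linarith
      · have h11 := hφ1 t z hz a ha
        have : d z a ≤ D.X t a z := h7
        linarith)
    (fun t _ z _ _ a ha => by
      have := hCcX t z a ha
      linarith)
  have hκε : κ / 2 ≤ κ * (1 - ε) := by nlinarith
  refine ⟨μ, Λ, hΛ, hlaw, hcons, ?_, ?_, ?_, ?_⟩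
  · intro t p hp p' hp'
    have h6 := hupp t p p'
    have h7 : dt t p p' = max (d p p') |g t p - g t p'| := dt_in (hHU hp) (hHU hp')
    have h8 : g t p = φ t p := ph_H hp
    have h8' : g t p' = φ t p' := ph_H hp'
    rw [h7, h8, h8'] at h6
    have h9 := hd.nonneg p p'
    have h10 := abs_nonneg (φ t p - φ t p')
    have h11 : max (d p p') |φ t p - φ t p'| ≤ d p p' + |φ t p - φ t p'| :=
      max_le (by linarith) (by linarith)
    linarith
  · intro t p hp p' hp'
    have h6 := hlow t p p' (hCc0 _ _ _)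
    have h8 : g t p = φ t p := ph_H hp
    have h8' : g t p' = φ t p' := ph_H hp'
    have h7 : |φ t p - φ t p'| ≤ Cc t p p' := by
      rw [← h8, ← h8']
      exact le_max_right _ _
    have h9 := abs_nonneg (φ t p - φ t p')
    refine le_trans ?_ h6
    calc κ / 124 * |φ t p - φ t p'| ≤ κ / 2 * |φ t p - φ t p'| :=
          mul_le_mul_of_nonneg_right (by linarith) h9
      _ ≤ κ * (1 - ε) * |φ t p - φ t p'| := mul_le_mul_of_nonneg_right hκε h9
      _ ≤ κ * (1 - ε) * Cc t p p' := mul_le_mul_of_nonneg_left h7 (by nlinarith)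
  · intro t z hz a ha
    have h6 := hlow t z a (hCc0 _ _ _)
    have h7 := hCcX t z a ha
    have h8 : d z a ≤ D.X t a z := X_ge h hr0 hO ha z
    have h9 := hd.nonneg z a
    refine le_trans ?_ h6
    calc κ / 124 * d z a = κ / 2 * (d z a / 62) := by ring
      _ ≤ κ / 2 * Cc t z a := mul_le_mul_of_nonneg_left (by linarith) (by positivity)
      _ ≤ κ * (1 - ε) * Cc t z a := mul_le_mul_of_nonneg_right hκε (hCc0 _ _ _)
  · intro s N hp z hz r hr hrd
    have hN := hp.pos
    have hnr : ∀ i < N, ¬ Z.up (s (i + 1)) = s (i + 1) := by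
      intro i hi h6
      exact hp.ne i hi ((hp.par i hi).symm.trans h6)
    have hzH : z ∈ Z.H (s N) := mem_H_iff.2 (Or.inr hz)
    have hne1 : (Z.S (s 1)).Nonempty := hSne (s 1) (hnr 0 hN)
    have hS1 : D.S (s 1) = Z.S (s 1) := SS_of_ne (hnr 0 hN)
    obtain ⟨c, Ω, hf, w, X, hco, hle⟩ := hfar s N ⟨fun i hi => hp.par i hi, hnr⟩ hN z hzH
      (D.F (s 1))
      (fun a ha => le_of_eq (D.F_mem hd (hSt ha)))
      (fun i hi z hz _ a ha => by
        have hA := anc_of_desc h hr0 (hp.desc (i := i + 1) (by omega) hi)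
        have h6 := D.F_le_E hd (s 1) z a
        have h7 := D.X_point hd hA (hSt ha) (hHU hz)
        have h8 := le_abs_self (D.F (s 1) z - D.F (s 1) a)
        linarith)
    refine ⟨c, Ω, hf, w, X, ⟨hco.nonneg, hco.bag, hco.agree, hco.far⟩, ?_⟩
    refine le_trans ?_ hle
    obtain ⟨a, ha, h6⟩ := D.F_near (by rw [hS1]; exact hne1 : (D.S (s 1)).Nonempty) z
    rw [h6]
    rw [hS1] at ha
    exact hrd a ha

end Vale.Agent.P235.H332.CX
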